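import Vale.Agent.P181.PL4.Br

set_option autoImplicit false

/-!
# P181, PL block P4: the lower bound for long columns, `LBL`
-/

open scoped Classical

namespace Vale.Agent.P181.PL4

open Finset Vale.Agent.P181.T4 Vale.Agent.P181.H463 Vale.Agent.P181.T7 Vale.Agent.P181.H280
open Vale.Agent.P181.H727 Vale.Agent.P181.H12

lemma log_ge {J : ℕ} (hJ : 2 ≤ J) : (0.69 : ℝ) ≤ Real.log J := by
  have h1 : Real.log 2 ≤ Real.log J := Real.log_le_log (by norm_num) (by exact_mod_cast hJ)
  have h2 := Real.log_two_gt_d9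
  linarith

lemma lbl_num {J B N K D' a : ℕ} (hJ : 2 ≤ J) (h8 : 8 * J ≤ N) (ha : 2 ≤ a)
    (hla : Real.log a ≤ K) (hB : B ≤ 2 * (N * K)) (hD : 8 * D' ≤ a * N) (hK : 5000 ≤ K) :
    (J : ℝ) ^ B * Real.exp N * (Real.exp N * (1 + (D' : ℝ) / N) ^ N) ≤
      Real.exp (8 * K * Real.log J) ^ (N - J) := by
  have hJ0 : (0 : ℝ) < J := by exact_mod_cast (by omega : 0 < J)
  have hN0 : (0 : ℝ) < N := by exact_mod_cast (by omega : 0 < N)
  have ha0 : (0 : ℝ) < a := by exact_mod_cast (by omega : 0 < a)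
  have hlog := log_ge hJ
  have h1 : 1 + (D' : ℝ) / N ≤ a := by
    have h2 : (D' : ℝ) / N ≤ a / 8 := by
      rw [div_le_div_iff₀ hN0 (by norm_num)]
      have : (8 : ℝ) * D' ≤ a * N := by exact_mod_cast hD
      linarith
    have h3 : (2 : ℝ) ≤ a := by exact_mod_cast ha
    linarith
  have h2 : (1 + (D' : ℝ) / N) ^ N ≤ Real.exp (N * K) := by
    calc (1 + (D' : ℝ) / N) ^ N ≤ (a : ℝ) ^ N := pow_le_pow_left₀ (by positivity) h1 _
      _ = Real.exp (N * Real.log a) := by
        rw [← Real.rpow_natCast, Real.rpow_def_of_pos ha0]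
        congr 1
        ring
      _ ≤ Real.exp (N * K) := by
        apply Real.exp_le_exp.2
        gcongr
  have h3 : (J : ℝ) ^ B ≤ Real.exp (2 * (N * K) * Real.log J) := by
    rw [← Real.rpow_natCast, Real.rpow_def_of_pos hJ0]
    apply Real.exp_le_exp.2
    have h4 : (B : ℝ) ≤ 2 * (N * K) := by exact_mod_cast hB
    nlinarith
  have h5 : Real.exp (8 * K * Real.log J) ^ (N - J) =
      Real.exp ((N - J : ℕ) * (8 * K * Real.log J)) := by
    rw [← Real.exp_nat_mul]
  rw [h5]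
  have hK5 : (5000 : ℝ) ≤ K := by exact_mod_cast hK
  calc (J : ℝ) ^ B * Real.exp N * (Real.exp N * (1 + (D' : ℝ) / N) ^ N)
      ≤ Real.exp (2 * (N * K) * Real.log J) * Real.exp N * (Real.exp N * Real.exp (N * K)) := by
        gcongr
    _ = Real.exp (2 * (N * K) * Real.log J + N + (N + N * K)) := by
        rw [Real.exp_add, Real.exp_add, Real.exp_add]
    _ ≤ _ := by
        apply Real.exp_le_exp.2
        have h6 : (7 : ℝ) * N ≤ 8 * ((N - J : ℕ) : ℝ) := by
          have : 7 * N ≤ 8 * (N - J) := by omega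
          exact_mod_cast this
        have h7 : (7 : ℝ) * N * (K * Real.log J) ≤ 8 * ((N - J : ℕ) : ℝ) * (K * Real.log J) := by
          have : (0 : ℝ) ≤ K * Real.log J := by positivity
          gcongr
        have h8' : (0 : ℝ) ≤ (N : ℝ) * K := by positivity
        have h9 : (N : ℝ) * K * 0.69 ≤ N * K * Real.log J := by gcongr
        have h10 : (N : ℝ) * 5000 ≤ N * K := by gcongr
        nlinarith

lemma hroom_num {n N K P B : ℕ} (hN : N = K * P * 2) (h8 : 8 * n ≤ N) (hn : 0 < n) (hK : 5000 ≤ K)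
    (hB1 : 3 * (P * (K * (K - 1))) + 2 * N ≤ B)
    (hB2 : B < 3 * (P * (K * (K - 1))) + 2 * N + n) :
    n * (2 * (3 * K + (B - 3 * (P * (K * (K - 1)))) / N + 1)) < B ∧ B ≤ 2 * (N * K) := by
  obtain ⟨k, rfl⟩ : ∃ k, K = k + 1 := ⟨K - 1, by omega⟩
  simp only [Nat.add_sub_cancel] at *
  have hN0 : 0 < N := by omega
  have h1 : (B - 3 * (P * ((k + 1) * k))) / N ≤ 2 := by
    have : (B - 3 * (P * ((k + 1) * k))) / N < 3 := by
      rw [Nat.div_lt_iff_lt_mul hN0]
      omega
    omega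
  have h2 : 2 * (3 * (P * ((k + 1) * k))) = 3 * (N * k) := by
    rw [hN]
    ring
  have h3 : N * (k + 1) = N * k + N := by ring
  have h4 : N * 4999 ≤ N * k := Nat.mul_le_mul_left _ (by omega)
  refine ⟨?_, by omega⟩
  have h5 : n * (2 * (3 * (k + 1) + (B - 3 * (P * ((k + 1) * k))) / N + 1)) ≤
      n * (2 * (3 * (k + 1) + 2 + 1)) := by gcongr
  refine lt_of_le_of_lt h5 ?_
  have h6 : 8 * (n * (2 * (3 * (k + 1) + 2 + 1))) ≤ N * (2 * (3 * (k + 1) + 2 + 1)) := by
    rw [← mul_assoc]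
    exact Nat.mul_le_mul_right _ h8
  have h7 : N * (2 * (3 * (k + 1) + 2 + 1)) = 6 * (N * k) + 12 * N := by ring
  omega

theorem lbl : PL.LBL := by
  intro a b n J K P L N lam hlam hsum hn2 hnJ hN h8J hP1 hP2 hK hKa h4a hb h3 hr hD hla hL hM
  have hs : ∑ i, low 2 lam i = PL.dn lam 2 := PL.sum_low lam 2
  have hJ2 : 2 ≤ J := by omega
  have hlogJ := log_ge hJ2
  have hN0 : 0 < N := by omega
  have hNr : (0 : ℝ) < N := by exact_mod_cast hN0
  have hKr : (5000 : ℝ) ≤ K := by exact_mod_cast hK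
  have hNK0 : (0 : ℝ) < (N : ℝ) * K := by positivity
  have hM1 : (69 : ℝ) * (N * K) ≤ PL.dn lam (2 + L) := by
    refine le_trans ?_ hM
    have : (0.69 : ℝ) * (100 * (N * K)) ≤ Real.log J * (100 * (N * K)) := by gcongr
    nlinarith
  have hM2 : 69 * (N * K) ≤ PL.dn lam (2 + L) := by exact_mod_cast hM1
  have hNK : N * 5000 ≤ N * K := Nat.mul_le_mul_left _ hK
  have hLn : 2 + L < n := by
    by_contra hcon
    rw [PL.dn_ge lam (by omega : n ≤ 2 + L)] at hM2
    omega
  have hMD : PL.dn lam (2 + L) ≤ PL.dn lam 2 := PL.dn_anti lam (by omega)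
  obtain ⟨k1, hk1⟩ : ∃ k, K = k + 1 := ⟨K - 1, by omega⟩
  have hPK : 2 * (3 * (P * (K * (K - 1)))) + 3 * N = 3 * (N * K) := by
    rw [hN, hk1]
    simp only [Nat.add_sub_cancel]
    ring
  have hcolx : ∀ c, 0 ≤ c → colLen n (ex lam) c - 2 ≤ n := by
    intro c _
    have := colLen_le n (ex lam) c
    omega
  have hA : 3 * (P * (K * (K - 1))) + 2 * N ≤ ∑ i : Fin (n - 2), (ex lam (2 + i) - 0) := by
    have h1 : ∑ i : Fin (n - 2), (ex lam (2 + i) - 0) = ∑ i, low 2 lam i := rfl
    rw [h1, hs]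
    omega
  obtain ⟨y, hy1, hy2⟩ := exists_y hlam hcolx (by omega) hA
  set F := FI lam 0 y with hF
  set B := ∑ c ∈ F, (colLen n (ex lam) c - 2) with hB
  set D' := ∑ i, etaF lam F i with hD'
  have hroom := hroom_num hN (show 8 * n ≤ N by omega) (by omega) hK hy1 hy2
  have hmu : ∀ i : Fin (n - 2), muF lam F i = min y (ex lam (2 + i)) := by
    intro i
    rw [hF, mu_FI hlam, Nat.sub_zero]
  have hmuB : ∑ i : Fin (n - 2), min y (ex lam (2 + i)) = B := by
    rw [hB, ← sum_mu]
    exact Finset.sum_congr rfl fun i _ => (hmu i).symm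
  have hDD : D' + B = ∑ i, low 2 lam i := by
    rw [hB, ← sum_mu]
    exact sum_eta_mu hlam F
  have hbr := branchN (h := P) (nmax := n) lam hlam hn2 hsum F (etaF lam F) (fun i => rfl) hB.symm
    hDD hN (by rw [hs]; exact hD) (by omega) h4a hb h3 hr (by omega) hKa
    (fun c _ => hcolx c (Nat.zero_le _)) (by omega) (by omega) hroom.1
  rw [Nat.choose_self, one_pow, one_mul] at hbr
  -- growth
  have hgr : Real.exp (8 * K * Real.log J) ≤ ∏ i, (1 + (etaF lam F i : ℝ) / N) := by
    refine growth_long (n := n - 2) (N := N) (L := L) (y := y) (S := PL.dn lam (2 + L) - B)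
      (E := fun i => ex lam (2 + i)) (fun i j hij => ex_anti hlam (by omega)) hN0 (by omega) ?_ ?_
      ?_ ?_
    · intro i
      have h1 := eta_add_mu hlam F i
      rw [hmu i] at h1
      have h2 : low 2 lam i = ex lam (2 + i) := rfl
      rw [h2] at h1
      show etaF lam F i = ex lam (2 + i) - y
      omega
    · show PL.dn lam (2 + L) - B + ∑ i : Fin (n - 2), min y (ex lam (2 + i)) ≤
        ∑ i : Fin (n - 2), min (ex lam (2 + i)) (ex lam (2 + L))
      rw [hmuB]
      have h1 : PL.dn lam (2 + L) ≤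
          ∑ i : Fin (n - 2), min (ex lam (2 + i)) (ex lam (2 + L)) := by
        rw [PL.dn_eq_range, Fin.sum_univ_eq_sum_range
          (fun i => min (ex lam (2 + i)) (ex lam (2 + L))) (n - 2),
          show n - 2 = L + (n - (2 + L)) by omega, Finset.sum_range_add]
        refine le_trans ?_ (Nat.le_add_left _ _)
        refine Finset.sum_le_sum fun i _ => ?_
        have e1 : 2 + (L + i) = 2 + L + i := by ring
        rw [e1]
        exact le_min le_rfl (PL.exanti hlam (by omega))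
      have h2 : B ≤ PL.dn lam (2 + L) := by
        have := hroom.2
        omega
      omega
    · linarith
    · rw [le_div_iff₀ (by positivity)]
      have h1 : ((PL.dn lam (2 + L) - B : ℕ) : ℝ) = (PL.dn lam (2 + L) : ℝ) - B := by
        rw [Nat.cast_sub]
        have := hroom.2
        omega
      rw [h1]
      have h2 : (B : ℝ) ≤ 2 * (N * K) := by exact_mod_cast hroom.2
      have h4 : (0.69 : ℝ) * (N * K) ≤ Real.log J * (N * K) := by gcongr
      nlinarith
  have hsh := H539.gt_growth_prod (n := n - 2) (a := J) (N := N) (by omega)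
    (by omega) (by omega) (lam := etaF lam F) (etaF_anti F)
  have h5 : gt (n - 2) J (low 2 lam) ≤
      gt (n - 2) J (etaF lam F) * gt (n - 2) J (muF lam F) := by
    have e : low 2 lam = fun i => etaF lam F i + muF lam F i := by
      funext i
      exact (eta_add_mu hlam F i).symm
    rw [e]
    exact gt_add_le J (etaF_anti F) (muF_anti F)
  have h6 : gt (n - 2) J (muF lam F) ≤ J ^ B := by
    have h1 := gt_le_pow (n := n - 2) J (muF lam F)
    have h2 : ∑ i, muF lam F i = B := sum_mu F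
    rwa [h2] at h1
  have hch := H403.choose_le7 D' N (by omega)
  have hDa : 8 * D' ≤ a * N := by
    rw [← hs] at hD
    omega
  have hnum := lbl_num (J := J) (B := B) (N := N) (K := K) (D' := D') (a := a) hJ2 h8J (by omega)
    hla hroom.2 hDa hK
  set g : ℝ := (gt (n - 2) J (etaF lam F) : ℝ) with hg
  set g' : ℝ := (gt (n - 2) N (etaF lam F) : ℝ) with hg'
  set Cc : ℝ := ((D' + N - 1).choose (N - 1) : ℝ) with hCc
  have hC0 : 0 < Cc := by
    rw [hCc]
    exact_mod_cast Nat.choose_pos (by omega)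
  have hgnn : 0 ≤ g := Nat.cast_nonneg _
  have h7 : (gt (n - 2) J (low 2 lam) : ℝ) ≤ g * (J : ℝ) ^ B := by
    have h8 : gt (n - 2) J (low 2 lam) ≤ gt (n - 2) J (etaF lam F) * J ^ B :=
      h5.trans (Nat.mul_le_mul_left _ h6)
    have h8' : (gt (n - 2) J (low 2 lam) : ℝ) ≤
        ((gt (n - 2) J (etaF lam F) * J ^ B : ℕ) : ℝ) := by exact_mod_cast h8
    rw [Nat.cast_mul, Nat.cast_pow] at h8'
    exact h8'
  have h8 : g' ≤ Cc * (plethMult b a n lam : ℝ) := by
    rw [hg', hCc]
    exact_mod_cast hbr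
  have h9 : g * Real.exp (8 * K * Real.log J) ^ (N - J) ≤ g' := by
    refine le_trans ?_ hsh
    exact mul_le_mul_of_nonneg_left (pow_le_pow_left₀ (Real.exp_pos _).le hgr _) hgnn
  have h10 : (gt (n - 2) J (low 2 lam) : ℝ) * Real.exp N * Cc ≤
      (plethMult b a n lam : ℝ) * Cc := by
    calc (gt (n - 2) J (low 2 lam) : ℝ) * Real.exp N * Cc
        ≤ (g * (J : ℝ) ^ B) * Real.exp N * (Real.exp N * (1 + (D' : ℝ) / N) ^ N) := by gcongr
      _ = g * ((J : ℝ) ^ B * Real.exp N * (Real.exp N * (1 + (D' : ℝ) / N) ^ N)) := by ring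
      _ ≤ g * Real.exp (8 * K * Real.log J) ^ (N - J) := by gcongr
      _ ≤ g' := h9
      _ ≤ Cc * (plethMult b a n lam : ℝ) := h8
      _ = _ := by ring
  exact le_of_mul_le_mul_right h10 hC0

end Vale.Agent.P181.PL4
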