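import Vale.Agent.P181.H12.Branch
import Vale.Agent.P181.H12.Cols
import Vale.Agent.P181.H12.Long
import Vale.Agent.P181.PL.Basic

set_option autoImplicit false

/-!
# P181, PL block P4: two heads and classes of contents, `n` rows, tableaux with `J` letters
-/

open scoped Classical

namespace Vale.Agent.P181.PL4

open Finset Vale.Agent.P181.T4 Vale.Agent.P181.H463 Vale.Agent.P181.T7 Vale.Agent.P181.H280
open Vale.Agent.P181.H727 Vale.Agent.P181.H12

theorem branchN {a b n N K P h B nmax : ℕ} (lam : Fin n → ℕ) (hlam : Antitone lam) (hn2 : 2 ≤ n)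
    (hsum : ∑ i, lam i = a * b) (F : Finset (Fin (ex lam 0))) (η : Fin (n - 2) → ℕ)
    (hη : ∀ i : Fin (n - 2), (univ.filter fun c : Fin (ex lam 0) =>
      c ∉ F ∧ 2 + (i : ℕ) < colLen n (ex lam) c).card = η i)
    (hB : ∑ c ∈ F, (colLen n (ex lam) c - 2) = B)
    (hηB : ∑ i, η i + B = ∑ i, low 2 lam i)
    (hN : N = K * P * 2) (hD : 8 * ∑ i, low 2 lam i ≤ a * N) (ha : 100 ≤ a) (hN4 : 4 * a ≤ N)
    (hb : b ≤ a ^ 2) (h3 : 3 * (a * N) ≤ ex lam 1) (hr : 2 * b + 2 * N + a * N ≤ ex lam 1)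
    (hh : 16 * (h + 1) ≤ a) (hK : 30 * K + 40 ≤ a)
    (hn : ∀ c ∈ F, colLen n (ex lam) c - 2 ≤ nmax) (hnN : nmax ≤ N)
    (hBK : 3 * (P * (K * (K - 1))) ≤ B)
    (hroom : nmax * (2 * (3 * K + (B - 3 * (P * (K * (K - 1)))) / N + 1)) < B) :
    (h.choose P) ^ K * gt (n - 2) N η ≤
      ((∑ i, η i) + N - 1).choose (N - 1) * plethMult b a n lam := by
  have hNpos : 0 < N := by omega
  -- the first two rows
  have hsplit : ex lam 0 + ex lam 1 + ∑ i, low 2 lam i = a * b := by
    have h4 := T4.sum_split hn2 lam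
    rw [hsum, Finset.sum_range_succ, Finset.sum_range_one] at h4
    omega
  obtain ⟨w0, w1, t0, t1, cq, dq, typ, e0, e1, ew, hw, hw1, hcsum, hcle, hdsum, hbal, hp0, hp1,
    hΘ, hpt, hlo, hinj, hU⟩ := exists_types (h := h) (ex_anti hlam (Nat.zero_le 1)) hsplit hηB hN hD
      ha hN4 h3 hh hK hBK
  obtain ⟨fx, hfx1, hfx2⟩ := exists_fix (N := N) (C := Fin (ex lam 0))
    (fun c => colLen n (ex lam) c - 2) F cq
    nmax (3 * K + (B - 3 * (P * (K * (K - 1)))) / N + 1) hNpos hn hnN hcle (by rw [hcsum, hB])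
    (by rw [hB]; exact hroom)
  have hL2 : ex lam 2 ≤ ∑ i, low 2 lam i := by
    rw [PL.sum_low]
    exact PL.ex_le_dn lam 2
  have hex : ex lam 2 + (a * N - ∑ i, low 2 lam i) ≤ ex lam 1 := by omega
  have hroom2 : 2 * b + 2 * N + (a * N - ∑ i, low 2 lam i) ≤ ex lam 1 := by omega
  have hcap : 2 * (b / w1 + 1) + 3 ≤ a := cap_num ha hb (by omega)
  let Dt : H310.TypIx 1 h K P → Dat := fun u => dat (a := a) (N := N) (w0 := w0) (w1 := w1)
    (b := b) (Θ := a * N - ∑ i, low 2 lam i) (ex lam) (typ u) (ex_antitone hlam)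
    (fun q i hi => hlo u q i hi)
    (by rw [hp0 u]; exact e0)
    (by rw [hp1 u]; exact e1) hw hw1 hNpos (by omega) (hΘ u)
    hex hroom2 hcap
  have hstrict : ∀ u, StrictAnti (Dt u).w := by
    intro u i j hij
    have hi := i.2
    have hj : (j : ℕ) < 2 := j.2
    have hij' : (i : ℕ) < j := hij
    change (if (j : ℕ) = 0 then w0 else w1) < (if (i : ℕ) = 0 then w0 else w1)
    rw [if_neg (by omega), if_pos (by omega)]
    exact hw
  have hm : ∀ i, n ≤ i → ex lam i = 0 := fun i hi => ex_zero lam hi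
  have htyp : ∀ u (q : Fin N) (i : ℕ), i < 2 → ((Dt u).top7 n hm).typ q i = typ u q i :=
    fun u q i hi => (Dt u).top7_typ hm q hi
  have hcardU : Fintype.card (H310.TypIx 1 h K P) = (h.choose P) ^ K := by
    rw [H310.card_typIx]
    simp
  rw [← hcardU]
  refine low_le_fix (m := n) (R := 2) (N := N) (b := b) (k := a)
    (T := Σ i : Fin 2, Fin (if (i : ℕ) = 0 then w0 else w1)) (cls := fun t => (t.1 : ℕ))
    (fun t => t.1.2) (U := H310.TypIx 1 h K P) (fun _ => Fin (ex lam 0))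
    (fun u => (Dt u).top7 n hm) (fun _ => F) η (fun _ => fx) (fun _ c hc => hfx1 c hc)
    (fun _ => dq) (fun i => if i = 0 then t0 else t1) lam ?_ ?_ ?_ ?_ ?_ ?_ ?_ ?_ ?_ ?_ ?_
  · rw [Fintype.card_sigma, Fin.sum_univ_two]
    simp
    omega
  · intro u i
    exact ((Dt u).top7_rows hm i).trans (ex_of_lt lam i.2)
  · intro u i
    rw [← hη i]
    congr 1
    ext c
    simp only [mem_filter, mem_univ, true_and]
    exact Iff.rfl
  · intro u x
    exact (Dt u).top7_inc hm x
  · intro u q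
    rw [Finset.sum_range_succ, Finset.sum_range_one]
    have g2 : ∑ c ∈ F, (univ.filter fun s => fx c s = q).card = cq q := hfx2 q
    have k : ((Dt u).top7 n hm).typ q 0 + ((Dt u).top7 n hm).typ q 1 +
        (dq q + ∑ c ∈ F, (univ.filter fun s => fx c s = q).card) = a := by
      rw [g2]
      exact (congrArg₂ (fun x y => x + y + (dq q + cq q)) (htyp u q 0 (by omega))
        (htyp u q 1 (by omega))).trans (hpt u q)
    exact k
  · intro u
    exact hbal
  · intro u
    exact hdsum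
  · intro u lo
    exact (Dt u).top7_forced hm (hstrict u) _ lo
  · intro u i hi
    have k : ∑ q : Fin N, ((Dt u).top7 n hm).typ q i = ∑ q, typ u q i :=
      Finset.sum_congr rfl fun q _ => htyp u q i hi
    refine Eq.trans k ?_
    interval_cases i
    · exact hp0 u
    · exact hp1 u
  · rintro u u' ⟨σ, hσ⟩
    refine (hU u' u σ fun q i hi => ?_).symm
    exact (htyp u q i hi).symm.trans ((hσ q i hi).trans (htyp u' (σ q) i hi))
  · intro u q q' hq
    refine hinj u q q' fun i hi => ?_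
    exact (htyp u q i hi).symm.trans ((hq i hi).trans (htyp u q' i hi))

end Vale.Agent.P181.PL4
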